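import Vale.Agent.P141.H652.ThetaS
import Vale.Agent.P141.H871.Aff

/-!
# P141, line (A), TI: the increasing slot on affected cells with multiplicity

The slot `Th` of `H652.ThetaS` is a window average of the supermartingale `W = 1 - S`.

* `nb` : the neighbours of the maximal cells where a scalar supermartingale exceeds `mu`;
* `stop_gen` : affected cells with count at most `lam` against a cellwise majorant;
* `le_mxT` : `⟪w, Th w⟫` on a cell is at most `mxT` at every point of the cell;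
* `sum_mxT` : the sum of `mxT` over `x₀`;
* `stop_Th` : the slot on the affected cells with count at most `lam`.
-/

namespace Vale.Agent.P141.H681

open Finset Matrix
open Vale.Agent.P141.PL (iv ix mem_iv card_iv ix_ix)
open Vale.Agent.P141.H420 (Tr)
open Vale.Agent.P141.H652 (WT ET Th st WT_psd WT_out WT_le_one ET_psd WT_drift Th_le WT_sum)
open Vale.Agent.P141.H871 (cnt cnt_anti cnt_step)
open Vale.Agent.P141.H922 (iv_iv)

noncomputable section

open scoped Classical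

/-! ### The neighbours of the maximal cells -/

section scalar

variable (X : ℕ → ℤ → ℝ) (mu : ℝ)

/-- neighbours of the maximal cells below `(k, q)` with `mu < X` -/
def nb : ℕ → ℤ → Finset ℤ
  | 0, q => if mu < X 0 q then Ico (q - 2) (q + 3) else ∅
  | k + 1, q => if mu < X (k + 1) q then
      Ico (2 ^ (k + 1) * (q - 2)) (2 ^ (k + 1) * (q + 3)) else nb k (2 * q) ∪ nb k (2 * q + 1)

variable {X mu}

theorem card_nb {K : ℕ} (hmu : 0 ≤ mu) (h0 : ∀ k q, 0 ≤ X k q)
    (hX : ∀ k < K, ∀ q, X k (2 * q) + X k (2 * q + 1) ≤ 2 * X (k + 1) q) :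
    ∀ k ≤ K, ∀ q, mu * ((nb X mu k q).card : ℝ) ≤ 5 * 2 ^ k * X k q := by
  intro k
  induction k with
  | zero =>
    intro _ q
    unfold nb
    split_ifs with h
    · have e : (Ico (q - 2) (q + 3)).card = 5 := by
        rw [Int.card_Ico]
        omega
      rw [e]
      push_cast
      linarith
    · have := h0 0 q
      simp only [card_empty, Nat.cast_zero, mul_zero]
      positivity
  | succ k ih =>
    intro hk q
    unfold nb
    split_ifs with h
    · have e : (Ico (2 ^ (k + 1) * (q - 2)) (2 ^ (k + 1) * (q + 3)) : Finset ℤ).card =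
          2 ^ (k + 1) * 5 := by
        rw [Int.card_Ico]
        have e1 : (2 ^ (k + 1) * (q + 3) - 2 ^ (k + 1) * (q - 2) : ℤ) =
            ((2 ^ (k + 1) * 5 : ℕ) : ℤ) := by
          push_cast
          ring
        rw [e1, Int.toNat_natCast]
      rw [e]
      push_cast
      have h2 : (0 : ℝ) < 2 ^ (k + 1) * 5 := by positivity
      have h3 := mul_le_mul_of_nonneg_right h.le h2.le
      linarith
    · have h1 := ih (by omega) (2 * q)
      have h2 := ih (by omega) (2 * q + 1)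
      have h3 : ((nb X mu k (2 * q) ∪ nb X mu k (2 * q + 1)).card : ℝ) ≤
          (nb X mu k (2 * q)).card + (nb X mu k (2 * q + 1)).card := by
        exact_mod_cast card_union_le _ _
      have h4 := mul_le_mul_of_nonneg_left h3 hmu
      have h5 := mul_le_mul_of_nonneg_left (hX k (by omega) q)
        (show (0 : ℝ) ≤ 5 * 2 ^ k by positivity)
      rw [pow_succ]
      linarith

theorem mem_nb : ∀ k j : ℕ, j ≤ k → ∀ q p y : ℤ, p ∈ iv (k - j) q → mu < X j p →
    2 ^ j * (p - 2) ≤ y → y < 2 ^ j * (p + 3) → y ∈ nb X mu k q := by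
  intro k
  induction k with
  | zero =>
    intro j hj q p y hp hX h1 h2
    obtain rfl : j = 0 := by omega
    rw [mem_iv] at hp
    unfold ix at hp
    simp only [Nat.sub_self, pow_zero, Int.ediv_one] at hp
    subst hp
    unfold nb
    rw [if_pos hX, mem_Ico]
    simp only [pow_zero, one_mul] at h1 h2
    exact ⟨h1, h2⟩
  | succ k ih =>
    intro j hj q p y hp hX h1 h2
    unfold nb
    split_ifs with h
    · rw [mem_Ico]
      rw [mem_iv] at hp
      unfold ix at hp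
      set d := k + 1 - j with hd
      have hpd : (0 : ℤ) < 2 ^ d := by positivity
      have hpj : (0 : ℤ) < 2 ^ j := by positivity
      have e : (2 : ℤ) ^ (k + 1) = 2 ^ j * 2 ^ d := by
        rw [← pow_add]
        congr 1
        omega
      have h3 : 2 ^ d * q ≤ p := by
        have := Int.ediv_mul_le p hpd.ne'
        rw [hp] at this
        linarith
      have h4 : p + 1 ≤ 2 ^ d * (q + 1) := by
        have := Int.lt_ediv_add_one_mul_self p hpd
        rw [hp] at this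
        linarith
      have h5 : 2 ^ j * (2 ^ d * q) ≤ 2 ^ j * p := mul_le_mul_of_nonneg_left h3 hpj.le
      have h6 : 2 ^ j * (p + 1) ≤ 2 ^ j * (2 ^ d * (q + 1)) :=
        mul_le_mul_of_nonneg_left h4 hpj.le
      have h7 : (2 : ℤ) ^ j * 1 ≤ 2 ^ j * 2 ^ d :=
        mul_le_mul_of_nonneg_left (by omega) hpj.le
      rw [e]
      constructor
      · nlinarith
      · nlinarith
    · rcases eq_or_lt_of_le hj with h3 | h3
      · subst h3
        rw [mem_iv] at hp
        unfold ix at hp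
        simp only [Nat.sub_self, pow_zero, Int.ediv_one] at hp
        subst hp
        exact absurd hX h
      · have hjk : j ≤ k := by omega
        rw [mem_union]
        rw [mem_iv] at hp
        have e : k + 1 - j = (k - j) + 1 := by omega
        rw [e, ← ix_ix (k - j) 1 p] at hp
        have h4 : ix (k - j) p = 2 * q ∨ ix (k - j) p = 2 * q + 1 := by
          generalize ix (k - j) p = z at hp ⊢
          unfold ix at hp
          rw [pow_one] at hp
          omega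
        rcases h4 with h4 | h4
        · exact Or.inl (ih j hjk _ p y (mem_iv.2 h4) hX h1 h2)
        · exact Or.inr (ih j hjk _ p y (mem_iv.2 h4) hX h1 h2)

/-- the layer sum -/
def lay (S : ℕ → Prop) (A : ℝ) (L : ℕ) : ℝ :=
  ∑ i ∈ range L, (if S (i + 1) then 2 * (A / 2 ^ (i + 1)) else 0) + A / 2 ^ L

theorem lay_nonneg {S : ℕ → Prop} {A : ℝ} (hA : 0 ≤ A) (L : ℕ) : 0 ≤ lay S A L := by
  unfold lay
  refine add_nonneg (sum_nonneg fun i _ => ?_) (by positivity)
  split_ifs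
  · positivity
  · exact le_rfl

theorem le_lay {S : ℕ → Prop} {A v : ℝ} (hA : 0 ≤ A) (hv : v ≤ A) :
    ∀ L : ℕ, (∀ i ∈ range L, A / 2 ^ (i + 1) < v → S (i + 1)) → v ≤ lay S A L := by
  intro L
  induction L with
  | zero =>
    intro _
    unfold lay
    simpa using hv
  | succ L ih =>
    intro h
    by_cases h1 : A / 2 ^ (L + 1) < v
    · have h2 := ih fun i hi => h i (mem_range.2 (by have := mem_range.1 hi; omega))
      unfold lay at h2 ⊢
      rw [sum_range_succ, if_pos (h L (mem_range.2 (by omega)) h1)]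
      have h3 : A / 2 ^ L = 2 * (A / 2 ^ (L + 1)) := by
        rw [pow_succ]
        field_simp
      have h4 : 0 ≤ A / 2 ^ (L + 1) := by positivity
      rw [h3] at h2
      linarith
    · have h2 : 0 ≤ ∑ i ∈ range (L + 1), (if S (i + 1) then 2 * (A / 2 ^ (i + 1)) else 0) := by
        refine sum_nonneg fun i _ => ?_
        split_ifs
        · positivity
        · exact le_rfl
      unfold lay
      linarith

end scalar

/-! ### Affected cells against a cellwise majorant -/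

/-- the scales with count at most `lam` -/
theorem num_le (a : ℕ → ℤ → Prop) (n : ℕ) (x : ℤ) (lam : ℕ) :
    ((range n).filter fun k => a k (ix k x) ∧ cnt a n k (ix k x) ≤ lam).card ≤ lam := by
  have h := card_le_card_of_injOn (s := (range n).filter fun k =>
      a k (ix k x) ∧ cnt a n k (ix k x) ≤ lam) (t := Icc 1 lam)
    (fun k => cnt a n k (ix k x)) (by
      intro k hk
      have hk1 := mem_filter.1 (mem_coe.1 hk)
      have h1 := cnt_step a (mem_range.1 hk1.1) x hk1.2.1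
      have h2 := hk1.2.2
      refine mem_coe.2 (mem_Icc.2 ⟨?_, h2⟩)
      show 1 ≤ cnt a n k (ix k x)
      omega) (by
      intro k hk j hj hkj
      have hk1 := mem_filter.1 (mem_coe.1 hk)
      have hj1 := mem_filter.1 (mem_coe.1 hj)
      have e : cnt a n k (ix k x) = cnt a n j (ix j x) := hkj
      by_contra hne
      rcases lt_or_gt_of_ne hne with h | h
      · have h5 := cnt_step a (mem_range.1 hk1.1) x hk1.2.1
        have h6 := cnt_anti a n x (k := k + 1) (j := j) h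
        omega
      · have h5 := cnt_step a (mem_range.1 hj1.1) x hj1.2.1
        have h6 := cnt_anti a n x (k := j + 1) (j := k) h
        omega)
  rwa [Nat.card_Icc, Nat.add_sub_cancel] at h

/-- one cell, weights against a majorant -/
theorem cell_le {k : ℕ} {m : ℤ} {W F D : ℤ → ℝ} {e : ℝ} (hW0 : ∀ x, 0 ≤ W x)
    (hW : ∑ x ∈ iv k m, W x ≤ e * 2 ^ k) (hD0 : ∀ x, 0 ≤ D x)
    (hF : ∀ x ∈ iv k m, ∀ y ∈ iv k m, F x ≤ D y) :
    ∑ x ∈ iv k m, W x * F x ≤ e * ∑ x ∈ iv k m, D x := by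
  have h1 : ∀ y ∈ iv k m, ∑ x ∈ iv k m, W x * F x ≤ (∑ x ∈ iv k m, W x) * D y := by
    intro y hy
    rw [sum_mul]
    exact sum_le_sum fun x hx => mul_le_mul_of_nonneg_left (hF x hx y hy) (hW0 x)
  have h2 := sum_le_sum h1
  rw [sum_const, card_iv, nsmul_eq_mul, ← mul_sum] at h2
  push_cast at h2
  have h3 := mul_le_mul_of_nonneg_right hW (sum_nonneg fun x (_ : x ∈ iv k m) => hD0 x)
  have h4 : (0 : ℝ) < 2 ^ k := by positivity
  have h5 : 2 ^ k * ∑ x ∈ iv k m, W x * F x ≤ 2 ^ k * (e * ∑ x ∈ iv k m, D x) := by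
    refine h2.trans (h3.trans (le_of_eq ?_))
    ring
  exact le_of_mul_le_mul_left h5 h4

/-- **Affected cells with count at most `lam` against a cellwise majorant.** -/
theorem stop_gen {n : ℕ} {T : ℤ} (W : ℕ → ℤ → ℝ) {e : ℝ} (hW0 : ∀ k x, 0 ≤ W k x)
    (hW : ∀ k ≤ n, ∀ j, ∑ x ∈ iv k j, W k x ≤ e * 2 ^ k) (a : ℕ → ℤ → Prop)
    (F : ℕ → ℤ → ℝ) (D : ℤ → ℝ) (hD0 : ∀ x, 0 ≤ D x)
    (hF : ∀ k < n, ∀ x ∈ iv n T, ∀ y ∈ iv n T, ix k x = ix k y → F k x ≤ D y) (lam : ℕ) :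
    ∑ k ∈ range n, ∑ x0 ∈ iv n T, (if a k (ix k x0) ∧ cnt a n k (ix k x0) ≤ lam then
      W k x0 * F k x0 else 0) ≤ lam * (e * ∑ x0 ∈ iv n T, D x0) := by
  have he : 0 ≤ e := by
    have h3 := (sum_nonneg fun x _ => hW0 0 x).trans (hW 0 (Nat.zero_le _) 0)
    simpa using h3
  have h1 : ∀ k ∈ range n, ∑ x0 ∈ iv n T, (if a k (ix k x0) ∧ cnt a n k (ix k x0) ≤ lam then
      W k x0 * F k x0 else 0) ≤
      ∑ x0 ∈ iv n T, (if a k (ix k x0) ∧ cnt a n k (ix k x0) ≤ lam then e * D x0 else 0) := by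
    intro k hk
    rw [mem_range] at hk
    rw [← iv_iv (k := k) (K := n) hk.le T, ← iv_iv (k := k) (K := n) hk.le T]
    refine sum_le_sum fun m hm => ?_
    have hsub : ∀ x ∈ iv k m, x ∈ iv n T := by
      intro x hx
      rw [mem_iv] at hx hm ⊢
      have := ix_ix k (n - k) x
      rw [Nat.add_sub_cancel' hk.le, hx, hm] at this
      exact this.symm
    by_cases h : a k m ∧ cnt a n k m ≤ lam
    · have e1 : ∀ x ∈ iv k m, (if a k (ix k x) ∧ cnt a n k (ix k x) ≤ lam then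
          W k x * F k x else 0) = W k x * F k x := by
        intro x hx
        rw [mem_iv] at hx
        rw [hx, if_pos h]
      have e2 : ∀ x ∈ iv k m, (if a k (ix k x) ∧ cnt a n k (ix k x) ≤ lam then
          e * D x else 0) = e * D x := by
        intro x hx
        rw [mem_iv] at hx
        rw [hx, if_pos h]
      rw [sum_congr rfl e1, sum_congr rfl e2, ← mul_sum]
      refine cell_le (hW0 k) (hW k hk.le m) hD0 fun x hx y hy => hF k hk x (hsub x hx) y
        (hsub y hy) ?_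
      rw [mem_iv] at hx hy
      rw [hx, hy]
    · have e1 : ∀ x ∈ iv k m, (if a k (ix k x) ∧ cnt a n k (ix k x) ≤ lam then
          W k x * F k x else 0) = 0 := by
        intro x hx
        rw [mem_iv] at hx
        rw [hx, if_neg h]
      have e2 : ∀ x ∈ iv k m, (if a k (ix k x) ∧ cnt a n k (ix k x) ≤ lam then
          e * D x else 0) = 0 := by
        intro x hx
        rw [mem_iv] at hx
        rw [hx, if_neg h]
      rw [sum_congr rfl e1, sum_congr rfl e2]
  refine (sum_le_sum h1).trans ?_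
  rw [sum_comm, mul_sum, mul_sum]
  refine sum_le_sum fun x _ => ?_
  rw [← sum_filter, sum_const, nsmul_eq_mul]
  have h2 : (((range n).filter fun k => a k (ix k x) ∧ cnt a n k (ix k x) ≤ lam).card : ℝ) ≤
      lam := by exact_mod_cast num_le a n x lam
  exact mul_le_mul_of_nonneg_right h2 (mul_nonneg he (hD0 x))

/-! ### The slot -/

section slot

variable {ι : Type*} [Fintype ι] [DecidableEq ι]
variable {l : ℝ} {K : ℕ} {M : ℤ} {Kr Gr : ℕ → ℤ → Matrix ι ι ℝ}

/-- the forms of `W` -/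
def XW (l : ℝ) (K : ℕ) (M : ℤ) (Kr : ℕ → ℤ → Matrix ι ι ℝ) (w : ι → ℝ) (k : ℕ) (q : ℤ) : ℝ :=
  w ⬝ᵥ WT l K M Kr k q *ᵥ w

theorem XW_nonneg (hT : Tr l K Gr Kr) (w : ι → ℝ) (k : ℕ) (q : ℤ) : 0 ≤ XW l K M Kr w k q :=
  H420.quad_nonneg (WT_psd (M := M) hT k q) w

theorem XW_le (hT : Tr l K Gr Kr) (w : ι → ℝ) (k : ℕ) (q : ℤ) : XW l K M Kr w k q ≤ w ⬝ᵥ w := by
  have h := H420.quad_nonneg (WT_le_one (M := M) hT k q) w
  rw [sub_mulVec, dotProduct_sub, one_mulVec] at h
  unfold XW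
  linarith

theorem XW_step (hT : Tr l K Gr Kr) (w : ι → ℝ) {k : ℕ} (hk : k < K) (q : ℤ) :
    XW l K M Kr w k (2 * q) + XW l K M Kr w k (2 * q + 1) ≤ 2 * XW l K M Kr w (k + 1) q := by
  have h := WT_drift l K M Kr k hk q
  have h1 := H420.quad_nonneg (ET_psd (M := M) hT (k + 1) q) w
  unfold XW
  rw [← dotProduct_add, ← add_mulVec, h, smul_mulVec, dotProduct_smul, sub_mulVec,
    dotProduct_sub, smul_eq_mul]
  linarith

/-- the majorant -/
def mxT (l : ℝ) (K : ℕ) (M : ℤ) (Kr : ℕ → ℤ → Matrix ι ι ℝ) (w : ι → ℝ) (L : ℕ)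
    (c x1 x3 x0 : ℤ) : ℝ :=
  2 * lay (fun i => c + 1 - x1 - x3 - x0 ∈ nb (XW l K M Kr w) ((w ⬝ᵥ w) / 2 ^ i) K M)
    (w ⬝ᵥ w) L

theorem mxT_nonneg (w : ι → ℝ) (L : ℕ) (c x1 x3 x0 : ℤ) :
    0 ≤ mxT l K M Kr w L c x1 x3 x0 :=
  mul_nonneg zero_le_two (lay_nonneg (H922.dot_self_nonneg w) L)

/-- **The slot on a cell is at most `mxT` at every point of the cell.** -/
theorem le_mxT (hT : Tr l K Gr Kr) (w : ι → ℝ) (L : ℕ) (c x1 x3 : ℤ) {x0 x : ℤ} {k : ℕ}
    (hk : k ≤ K) (hx : ix k x = ix k x0) :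
    w ⬝ᵥ Th l K M Kr c x x1 k (ix k x3) *ᵥ w ≤ mxT l K M Kr w L c x1 x3 x0 := by
  have h1 := H420.quad_nonneg (Th_le (M := M) hT c x x1 hk (ix k x3)) w
  rw [sub_mulVec, dotProduct_sub, add_mulVec, dotProduct_add] at h1
  set q := st c x x1 k (ix k x3) / 2 ^ k with hq
  have hA := H922.dot_self_nonneg w
  have hp : (0 : ℤ) < 2 ^ k := by positivity
  have h2 : 2 ^ k * q ≤ st c x x1 k (ix k x3) := by
    have := Int.ediv_mul_le (st c x x1 k (ix k x3)) hp.ne'
    rw [← hq] at this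
    linarith
  have h3 : st c x x1 k (ix k x3) < 2 ^ k * (q + 1) := by
    have := Int.lt_ediv_add_one_mul_self (st c x x1 k (ix k x3)) hp
    rw [← hq] at this
    linarith
  have h4 : 2 ^ k * ix k x3 ≤ x3 := by
    have := Int.ediv_mul_le x3 hp.ne'
    unfold ix
    linarith
  have h5 : x3 < 2 ^ k * (ix k x3 + 1) := by
    have := Int.lt_ediv_add_one_mul_self x3 hp
    unfold ix
    linarith
  have h6 : 2 ^ k * ix k x0 ≤ x0 := by
    have := Int.ediv_mul_le x0 hp.ne'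
    unfold ix
    linarith
  have h7 : x0 < 2 ^ k * (ix k x0 + 1) := by
    have := Int.lt_ediv_add_one_mul_self x0 hp
    unfold ix
    linarith
  have h8 : 2 ^ k * ix k x0 ≤ x := by
    have := Int.ediv_mul_le x hp.ne'
    rw [← hx]
    unfold ix
    linarith
  have h9 : x < 2 ^ k * (ix k x0 + 1) := by
    have := Int.lt_ediv_add_one_mul_self x hp
    rw [← hx]
    unfold ix
    linarith
  have key : ∀ p : ℤ, 2 ^ k * (p - 2) ≤ c + 1 - x1 - x3 - x0 →
      c + 1 - x1 - x3 - x0 < 2 ^ k * (p + 3) → XW l K M Kr w k p ≤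
      lay (fun i => c + 1 - x1 - x3 - x0 ∈ nb (XW l K M Kr w) ((w ⬝ᵥ w) / 2 ^ i) K M)
        (w ⬝ᵥ w) L := by
    intro p hp1 hp2
    refine le_lay hA (XW_le hT w k p) L fun i _ hi => ?_
    by_cases hm : p ∈ iv (K - k) M
    · exact mem_nb K k hk M p _ hm hi hp1 hp2
    · exfalso
      have h0 : XW l K M Kr w k p = 0 := by
        unfold XW
        rw [WT_out hm, zero_mulVec, dotProduct_zero]
      rw [h0] at hi
      have : 0 ≤ (w ⬝ᵥ w) / 2 ^ (i + 1) := by positivity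
      linarith
  unfold st at h2 h3
  have k1 := key q (by nlinarith) (by nlinarith)
  have k2 := key (q + 1) (by nlinarith) (by nlinarith)
  unfold XW at k1 k2
  unfold mxT
  unfold XW
  linarith

/-- **The sum of the majorant over `x₀`.** -/
theorem sum_mxT (hT : Tr l K Gr Kr) (w : ι → ℝ) (L : ℕ) (c x1 x3 T : ℤ) :
    ∑ x0 ∈ iv K T, mxT l K M Kr w L c x1 x3 x0 ≤
      2 ^ K * (10 * L * l⁻¹ * (w ⬝ᵥ Gr K M *ᵥ w) + 2 / 2 ^ L * (w ⬝ᵥ w)) := by
  have hA := H922.dot_self_nonneg w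
  have hX : XW l K M Kr w K M ≤ (2 * l)⁻¹ * (w ⬝ᵥ Gr K M *ᵥ w) := by
    have h := WT_sum (M := M) hT w (le_refl K)
    have e : iv (K - K) M = {M} := by
      ext x
      rw [mem_iv, mem_singleton]
      unfold ix
      simp
    rw [e, sum_singleton] at h
    exact le_of_mul_le_mul_left h (by positivity)
  have h1 : ∀ i ∈ range L, ∑ x0 ∈ iv K T,
      (if c + 1 - x1 - x3 - x0 ∈ nb (XW l K M Kr w) ((w ⬝ᵥ w) / 2 ^ (i + 1)) K M then
        2 * ((w ⬝ᵥ w) / 2 ^ (i + 1)) else 0) ≤ 2 ^ K * (5 * l⁻¹ * (w ⬝ᵥ Gr K M *ᵥ w)) := by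
    intro i _
    rw [← sum_filter, sum_const, nsmul_eq_mul]
    have hmu : 0 ≤ (w ⬝ᵥ w) / 2 ^ (i + 1) := by positivity
    have h2 := card_nb hmu (XW_nonneg (M := M) hT w)
      (fun k hk q => XW_step (M := M) hT w hk q) K le_rfl M
    have h3 : ((iv K T).filter fun x0 => c + 1 - x1 - x3 - x0 ∈
        nb (XW l K M Kr w) ((w ⬝ᵥ w) / 2 ^ (i + 1)) K M).card ≤
        (nb (XW l K M Kr w) ((w ⬝ᵥ w) / 2 ^ (i + 1)) K M).card := by
      refine card_le_card_of_injOn (fun x0 => c + 1 - x1 - x3 - x0) ?_ ?_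
      · intro x hx
        exact mem_coe.2 (mem_filter.1 (mem_coe.1 hx)).2
      · intro x _ y _ hxy
        have : c + 1 - x1 - x3 - x = c + 1 - x1 - x3 - y := hxy
        linarith
    have h4 : ((((iv K T).filter fun x0 => c + 1 - x1 - x3 - x0 ∈
        nb (XW l K M Kr w) ((w ⬝ᵥ w) / 2 ^ (i + 1)) K M).card : ℕ) : ℝ) ≤
        ((nb (XW l K M Kr w) ((w ⬝ᵥ w) / 2 ^ (i + 1)) K M).card : ℝ) := by exact_mod_cast h3
    have h5 := mul_le_mul_of_nonneg_left h4 hmu
    have h6 := mul_le_mul_of_nonneg_left hX (show (0 : ℝ) ≤ 5 * 2 ^ K by positivity)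
    calc _ = 2 * ((w ⬝ᵥ w) / 2 ^ (i + 1) * ((((iv K T).filter fun x0 => c + 1 - x1 - x3 - x0 ∈
        nb (XW l K M Kr w) ((w ⬝ᵥ w) / 2 ^ (i + 1)) K M).card : ℕ) : ℝ)) := by ring
      _ ≤ 2 * (5 * 2 ^ K * ((2 * l)⁻¹ * (w ⬝ᵥ Gr K M *ᵥ w))) := by linarith
      _ = _ := by rw [mul_inv]; ring
  have h2 : ∑ x0 ∈ iv K T, mxT l K M Kr w L c x1 x3 x0 =
      2 * (∑ i ∈ range L, ∑ x0 ∈ iv K T,
      (if c + 1 - x1 - x3 - x0 ∈ nb (XW l K M Kr w) ((w ⬝ᵥ w) / 2 ^ (i + 1)) K M then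
        2 * ((w ⬝ᵥ w) / 2 ^ (i + 1)) else 0) + 2 ^ K * ((w ⬝ᵥ w) / 2 ^ L)) := by
    unfold mxT lay
    rw [← mul_sum, sum_add_distrib, sum_comm, sum_const, card_iv, nsmul_eq_mul]
    push_cast
    refine congrArg (fun z => 2 * (z + 2 ^ K * ((w ⬝ᵥ w) / 2 ^ L))) ?_
    refine sum_congr rfl fun i _ => sum_congr rfl fun x0 _ => ?_
    by_cases h : c + 1 - x1 - x3 - x0 ∈ nb (XW l K M Kr w) ((w ⬝ᵥ w) / 2 ^ (i + 1)) K M
    · rw [if_pos h, if_pos h]
    · rw [if_neg h, if_neg h]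
  rw [h2]
  have h3 := sum_le_sum h1
  rw [sum_const, card_range, nsmul_eq_mul] at h3
  calc _ ≤ 2 * ((L : ℝ) * (2 ^ K * (5 * l⁻¹ * (w ⬝ᵥ Gr K M *ᵥ w))) +
        2 ^ K * ((w ⬝ᵥ w) / 2 ^ L)) := by linarith
    _ = _ := by ring

/-- **The slot on the affected cells with count at most `lam`.** -/
theorem stop_Th (hT : Tr l K Gr Kr) (w : ι → ℝ) (W : ℕ → ℤ → ℝ) {e : ℝ}
    (hW0 : ∀ k x, 0 ≤ W k x) (hW : ∀ k ≤ K, ∀ j, ∑ x ∈ iv k j, W k x ≤ e * 2 ^ k)
    (a : ℕ → ℤ → Prop) (c x1 x3 T : ℤ) (L lam : ℕ) :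
    ∑ k ∈ range K, ∑ x0 ∈ iv K T, (if a k (ix k x0) ∧ cnt a K k (ix k x0) ≤ lam then
      W k x0 * (w ⬝ᵥ Th l K M Kr c x0 x1 k (ix k x3) *ᵥ w) else 0) ≤
      lam * (e * (2 ^ K * (10 * L * l⁻¹ * (w ⬝ᵥ Gr K M *ᵥ w) + 2 / 2 ^ L * (w ⬝ᵥ w)))) := by
  have he : 0 ≤ e := by
    have h3 := (sum_nonneg fun x _ => hW0 0 x).trans (hW 0 (Nat.zero_le _) 0)
    simpa using h3
  refine (stop_gen W hW0 hW a (fun k x => w ⬝ᵥ Th l K M Kr c x x1 k (ix k x3) *ᵥ w)
    (mxT l K M Kr w L c x1 x3) (mxT_nonneg w L c x1 x3)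
    (fun k hk x _ y _ hxy => le_mxT hT w L c x1 x3 hk.le hxy) lam).trans ?_
  have h1 := mul_le_mul_of_nonneg_left (sum_mxT (M := M) hT w L c x1 x3 T) he
  exact mul_le_mul_of_nonneg_left h1 (Nat.cast_nonneg _)

end slot

end

end Vale.Agent.P141.H681
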