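import Vale.Agent.P141.H808.NumCA
import Vale.Agent.P141.H447.NumI2
import Vale.Agent.P141.H681.ThMax
import Vale.Agent.P141.H58.EWn
import Vale.Agent.P141.H652.LabL

/-!
# P141, line (A), TI: the energy of the stack at every scale, leaf `FEn`

* `en_pt` : one pair `(x₁, x₃)`, all scales at once;
* `tail_cls` : the tail of the count of the affected alive squares;
* `fEn : H808.FEn`.
-/

namespace Vale.Agent.P141.H681

open Finset Matrix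
open Vale.Agent.P141.PL (Pt iv ix mem_iv card_iv ix_ix cb mem_cb cx)
open Vale.Agent.P141.PL.H315 (Tri A2)
open Vale.Agent.P141.H48 (US ES BSl sst bg)
open Vale.Agent.P141.H305 (Cls ClsM)
open Vale.Agent.P141.H420 (Tr)
open Vale.Agent.P141.H652 (WT ET Th st WT_psd WT_out WT_le_one ET_psd WT_drift Th_le WT_sum)
open Vale.Agent.P141.H677 (kF KT GT rt tr_T GT_form)
open Vale.Agent.P141.H224 (cq)
open Vale.Agent.P141.H958 (PackQ)

noncomputable section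

open scoped Classical

/-! ### Weights -/

section weights

variable {Λ : ℝ} {a : ℤ × ℤ → ℝ} {K n : ℕ} {ez cP : ℝ} {F : ℕ → Pt → ℝ} {Q : ℕ → Pt → Prop}

/-- affected alive squares -/
def Qs (Λ : ℝ) (a : ℤ × ℤ → ℝ) (K : ℕ) (Q : ℕ → Pt → Prop) (k : ℕ) (j i m : ℤ) : Prop :=
  Q k (j, i, m) ∧ ¬ sst Λ a K k (2 ^ k * i) (2 ^ k * m)

theorem corner (k : ℕ) (x : ℤ) : ix k (2 ^ k * ix k x) = ix k x := by
  unfold PL.ix
  rw [Int.mul_ediv_cancel_left _ (by positivity)]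

theorem w_mono (hB : BSl n ez cP F Q) (hK : K ≤ n) {k : ℕ} (hk : k < K) (x x1 x3 : ℤ)
    (h : ¬ Qs Λ a K Q k (ix k x) (ix k x1) (ix k x3)) :
    kF Λ a K F k (x, x1, x3) ^ 2 ≤ kF Λ a K F (k + 1) (x, x1, x3) ^ 2 := by
  have hs : sst Λ a K k (2 ^ k * ix k x1) (2 ^ k * ix k x3) ↔ sst Λ a K k x1 x3 :=
    H769.sst_congr (corner k x1) (corner k x3)
  unfold H677.kF
  by_cases h0 : k = 0 ∨ sst Λ a K k x1 x3
  · rw [if_pos h0]
    simp only [ne_eq, OfNat.ofNat_ne_zero, not_false_eq_true, zero_pow]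
    positivity
  · have h0' := h0
    push Not at h0'
    have h1 : ¬ (k + 1 = 0 ∨ sst Λ a K (k + 1) x1 x3) := by
      rintro (h2 | h2)
      · omega
      · exact h0'.2 (H769.sst_anti (Nat.le_succ k) h2)
    have h3 : ¬ Q k (ix k x, ix k x1, ix k x3) := fun h4 => h ⟨h4, fun h5 => h0'.2 (hs.1 h5)⟩
    have h4 := hB.agree k (Nat.pos_of_ne_zero h0'.1) (by omega) _ h3 (x, x1, x3)
      (mem_cb.2 rfl)
    rw [if_neg h0, if_neg h1, h4]

theorem w_succ (hB : BSl n ez cP F Q) (hez : 0 < ez) (hK : K ≤ n) {k : ℕ} (hk : k < K)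
    (j x1 x3 : ℤ) : ∑ x ∈ iv k j, kF Λ a K F (k + 1) (x, x1, x3) ^ 2 / ez ≤ 1 * 2 ^ k := by
  rw [← sum_div, div_le_iff₀ hez]
  refine (H58.kF_line (Λ := Λ) (a := a) hB hez.le (by omega) j x1 x3).trans (le_of_eq ?_)
  ring

theorem w_cell (hB : BSl n ez cP F Q) (hez : 0 < ez) (hK : K ≤ n) {k : ℕ} (hk : k ≤ K)
    (j x1 x3 : ℤ) : ∑ x ∈ iv k j, kF Λ a K F k (x, x1, x3) ^ 2 / ez ≤ 1 * 2 ^ k := by
  cases k with
  | zero =>
    have h1 : ∑ x ∈ iv 0 j, kF Λ a K F 0 (x, x1, x3) ^ 2 / ez = 0 := by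
      refine sum_eq_zero fun x _ => ?_
      unfold H677.kF
      rw [if_pos (Or.inl rfl)]
      simp
    rw [h1]
    positivity
  | succ k =>
    rw [H447.iv_succ_sum]
    have h1 := w_succ (Λ := Λ) (a := a) hB hez hK (k := k) (by omega) (2 * j) x1 x3
    have h2 := w_succ (Λ := Λ) (a := a) hB hez hK (k := k) (by omega) (2 * j + 1) x1 x3
    rw [pow_succ]
    linarith

end weights

/-! ### One pair of points -/

variable {ι : Type} [Fintype ι] [DecidableEq ι]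

/-- **One pair of points, all scales at once.** -/
theorem en_pt {Λ : ℝ} {a : ℤ × ℤ → ℝ} {K n : ℕ} {ez cP : ℝ} {F : ℕ → Pt → ℝ}
    {Q : ℕ → Pt → Prop} (hB : BSl n ez cP F Q) (hez : 0 < ez) (hK : K ≤ n) {l : ℝ} {S : ℤ}
    {Gr Kr : ℕ → ℤ → Matrix ι ι ℝ} (hT : Tr l K Gr Kr) {be : ℝ} (hbe : 0 ≤ be) (w : ι → ℝ)
    (c x1 x3 : ℤ) (L lam : ℕ) (T : ℤ) :
    ∃ E : ℤ → ℝ, (∀ x, 0 ≤ E x) ∧
      (∀ k ≤ K, ∀ x, kF Λ a K F k (x, x1, x3) ^ 2 / ez *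
        (w ⬝ᵥ (be • (1 : Matrix ι ι ℝ) + Th l K S Kr c x x1 k (ix k x3)) *ᵥ w) ≤ E x) ∧
      (∀ k < K, ∀ x, kF Λ a K F (k + 1) (x, x1, x3) ^ 2 / ez *
        (w ⬝ᵥ (be • (1 : Matrix ι ι ℝ) + Th l K S Kr c x x1 k (ix k x3)) *ᵥ w) ≤ E x) ∧
      ∑ x ∈ iv K T, E x ≤ ((lam : ℝ) + 1) * (2 * 1) * (2 ^ K * (be * (w ⬝ᵥ w)) +
        2 ^ K * (10 * L * l⁻¹ * (w ⬝ᵥ Gr K S *ᵥ w) + 2 / 2 ^ L * (w ⬝ᵥ w))) +
        2 * 1 * ((be + 2) * (w ⬝ᵥ w) * ∑ x ∈ iv K T,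
          ((cq (fun k j => Qs Λ a K Q k j (ix k x1) (ix k x3)) K 0 x - lam : ℕ) : ℝ)) := by
  have hww := H922.dot_self_nonneg w
  have hf : ∀ k x, w ⬝ᵥ (be • (1 : Matrix ι ι ℝ) + Th l K S Kr c x x1 k (ix k x3)) *ᵥ w =
      be * (w ⬝ᵥ w) + w ⬝ᵥ Th l K S Kr c x x1 k (ix k x3) *ᵥ w := by
    intro k x
    rw [add_mulVec, dotProduct_add, smul_mulVec, one_mulVec, dotProduct_smul, smul_eq_mul]
  have hTh0 : ∀ k x, 0 ≤ w ⬝ᵥ Th l K S Kr c x x1 k (ix k x3) *ᵥ w := fun k x =>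
    H420.quad_nonneg (H652.Th_psd hT c x x1 k (ix k x3)) w
  have hTh2 : ∀ k x, w ⬝ᵥ Th l K S Kr c x x1 k (ix k x3) *ᵥ w ≤ 2 * (w ⬝ᵥ w) := by
    intro k x
    have h := H420.quad_nonneg (H652.Th_le_two (M := S) hT c x x1 k (ix k x3)) w
    rw [sub_mulVec, dotProduct_sub, smul_mulVec, one_mulVec, dotProduct_smul, smul_eq_mul] at h
    linarith
  obtain ⟨E, h0, h1, h2, h3⟩ := H447.supQ2 (K := K) (e := 1) (cp := (be + 2) * (w ⬝ᵥ w))
    (X := fun k x => w ⬝ᵥ (be • (1 : Matrix ι ι ℝ) + Th l K S Kr c x x1 k (ix k x3)) *ᵥ w)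
    (W := fun k x => kF Λ a K F k (x, x1, x3) ^ 2 / ez)
    (Φ := fun x => be * (w ⬝ᵥ w) + mxT l K S Kr w L c x1 x3 x)
    (a := fun k j => Qs Λ a K Q k j (ix k x1) (ix k x3))
    (fun k x => by
      beta_reduce
      rw [hf]
      exact add_nonneg (mul_nonneg hbe hww) (hTh0 k x))
    zero_le_one (by positivity)
    (fun k _ x => by
      beta_reduce
      rw [hf]
      have := hTh2 k x
      linarith)
    (fun k hk x x' hx' => by
      beta_reduce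
      rw [hf]
      have := le_mxT (M := S) hT w L c x1 x3 (x0 := x) (x := x') hk (mem_iv.1 hx')
      linarith)
    (fun k x => by positivity)
    (fun k hk x h => by
      beta_reduce
      exact div_le_div_of_nonneg_right (w_mono hB hK hk x x1 x3 h) hez.le)
    (fun k hk j => w_cell hB hez hK hk j x1 x3)
    (fun k hk j => w_succ hB hez hK hk j x1 x3) lam T
  refine ⟨E, h0, h1, h2, h3.trans ?_⟩
  have h4 := sum_mxT (M := S) hT w L c x1 x3 T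
  have h5 : ∑ x ∈ iv K T, (be * (w ⬝ᵥ w) + mxT l K S Kr w L c x1 x3 x) ≤
      2 ^ K * (be * (w ⬝ᵥ w)) +
        2 ^ K * (10 * L * l⁻¹ * (w ⬝ᵥ Gr K S *ᵥ w) + 2 / 2 ^ L * (w ⬝ᵥ w)) := by
    rw [sum_add_distrib, sum_const, card_iv, nsmul_eq_mul]
    push_cast
    linarith
  have h6 : (0 : ℝ) ≤ ((lam : ℝ) + 1) * (2 * 1) := by positivity
  have h7 := mul_le_mul_of_nonneg_left h5 h6
  linarith

/-! ### The tail -/

/-- mass of an alive square -/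
theorem mass_alive {K : ℕ} {x : Pt} {s r P : ℝ} {U : Tri} {g : ℤ → ℤ → ℝ}
    {u v : ℤ → ℤ → ι → ℝ} (C : Cls K x s r P U g u v) {Λ : ℝ} (hΛ : 0 ≤ Λ) {k : ℕ} (hk : k ≤ K)
    {i m : ℤ} (hi : ix (K - k) i = ix K x.1) (hm : ix (K - k) m = ix K x.2.2)
    (h : ¬ sst Λ U.2.1 K k (2 ^ k * i) (2 ^ k * m)) :
    ∑ x1 ∈ iv k i, ∑ z ∈ iv k m, v x1 z ⬝ᵥ v x1 z ≤ Λ * s * 4 ^ k := by
  have e0 : ∀ i : ℤ, ix k (2 ^ k * i) = i := fun i => by
    unfold PL.ix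
    rw [Int.mul_ediv_cancel_left _ (by positivity)]
  have eK : ∀ {i : ℤ} {y : ℤ}, ix (K - k) i = ix K y → ix K (2 ^ k * i) = ix K y := by
    intro i y h1
    have h2 := ix_ix k (K - k) (2 ^ k * i)
    rw [Nat.add_sub_cancel' hk, e0] at h2
    rw [← h2, h1]
  have hroot : ∀ {i : ℤ} {y : ℤ}, ix (K - k) i = ix K y → ∀ x1 ∈ iv k i, x1 ∈ iv K (ix K y) := by
    intro i y h1 x1 hx
    have h2 := ix_ix k (K - k) x1
    rw [Nat.add_sub_cancel' hk, mem_iv.1 hx, h1] at h2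
    exact mem_iv.2 h2.symm
  have h1 : ∑ x1 ∈ iv k i, ∑ z ∈ iv k m, v x1 z ⬝ᵥ v x1 z ≤
      ∑ x1 ∈ iv k i, ∑ z ∈ iv k m, U.2.1 (x1, z) ^ 2 := by
    refine sum_le_sum fun x1 hx => sum_le_sum fun z hz => ?_
    have h2 := hroot hi x1 hx
    have h3 := hroot hm z hz
    rw [← H769.iv_pt] at h2 h3
    exact C.v_le x1 h2 z h3
  refine h1.trans ?_
  have h2 := H58.A2_sum U.2.1 k (2 ^ k * i) (2 ^ k * m)
  rw [e0, e0] at h2
  rw [h2]
  have h3 : ¬ bg Λ U.2.1 K k (2 ^ k * i) (2 ^ k * m) := fun hb => h ⟨k, le_rfl, hk, hb⟩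
  unfold H48.bg at h3
  push Not at h3
  have h4 : A2 K U.2.1 (2 ^ k * i) (2 ^ k * m) = A2 K U.2.1 x.1 x.2.2 := by
    have h5 := H58.A2_sum U.2.1 K (2 ^ k * i) (2 ^ k * m)
    have h6 := H58.A2_sum U.2.1 K x.1 x.2.2
    rw [eK hi, eK hm, h6] at h5
    exact (mul_right_cancel₀ (by positivity : (4 : ℝ) ^ K ≠ 0) h5).symm
  have h7 : A2 k U.2.1 (2 ^ k * i) (2 ^ k * m) ≤ Λ * s := by
    refine h3.1.trans ?_
    rw [h4]
    exact mul_le_mul_of_nonneg_left C.U_v2 hΛ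
  exact mul_le_mul_of_nonneg_right h7 (by positivity)

/-- **The tail of the count, one `x₀`.** -/
theorem tail_cls {K n : ℕ} {x : Pt} {s r P : ℝ} {U : Tri} {g : ℤ → ℤ → ℝ}
    {u v : ℤ → ℤ → ι → ℝ} (C : Cls K x s r P U g u v) {Λ : ℝ} (hΛ : 0 ≤ Λ) (hs : 0 ≤ s)
    {ez cP : ℝ} {F : ℕ → Pt → ℝ} {Q : ℕ → Pt → Prop} (hB : BSl n ez cP F Q) (hcP : 0 ≤ cP)
    (hK : K ≤ n) (x0 : ℤ) (lam : ℕ) :
    ∑ x1 ∈ iv K (cx K x).1, ∑ z ∈ iv K (cx K x).2.2, (v x1 z ⬝ᵥ v x1 z) *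
      ((cq (fun k j => Qs Λ U.2.1 K Q k j (ix k x1) (ix k z)) K 0 x0 - lam : ℕ) : ℝ) ≤
      Λ * s * ((1 - 1 / (cP + 1)) ^ lam * ((cP + 1) * 4 ^ K)) := by
  set R := (cx K x).1 with hR
  set S := (cx K x).2.2 with hS
  set c : ℤ → ℤ → ℝ := fun x1 z => if x1 ∈ iv K R ∧ z ∈ iv K S then v x1 z ⬝ᵥ v x1 z else 0 with hc
  have hc0 : ∀ x1 z, 0 ≤ c x1 z := by
    intro x1 z
    rw [hc]
    beta_reduce
    split_ifs
    · exact H922.dot_self_nonneg _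
    · exact le_rfl
  have hpk : PackQ K R S (fun k i m => Qs Λ U.2.1 K Q k (ix k x0) i m) (cP + 1) := by
    intro K' hK' n' m'
    refine (H769.aff_filter_le _ n' m').trans ?_
    have h1 := hB.pack x0 K' (hK'.trans hK) n' m'
    have h2 : ∑ k ∈ range (K' + 1), ∑ r' ∈ iv (K' - k) n', ∑ s' ∈ iv (K' - k) m',
        (if Qs Λ U.2.1 K Q k (ix k x0) r' s' then (4 : ℝ) ^ k else 0) ≤
        ∑ k ∈ range (K' + 1), ∑ r' ∈ iv (K' - k) n', ∑ s' ∈ iv (K' - k) m',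
        (if Q k (ix k x0, r', s') then (4 : ℝ) ^ k else 0) := by
      refine sum_le_sum fun k _ => sum_le_sum fun r' _ => sum_le_sum fun s' _ => ?_
      by_cases h3 : Q k (ix k x0, r', s')
      · rw [if_pos h3]
        split_ifs
        · exact le_rfl
        · positivity
      · rw [if_neg h3, if_neg (fun h4 => h3 h4.1)]
    refine h2.trans (h1.trans ?_)
    exact mul_le_mul_of_nonneg_right (by linarith) (by positivity)
  have hκ : 0 ≤ Λ * s := mul_nonneg hΛ hs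
  have key := H224.sum_cq (n := K) (R := R) (S := S) (x0 := x0) (Q := Qs Λ U.2.1 K Q)
    (B := cP + 1) (κ := Λ * s) (by linarith) hκ hpk (c := c) (fun k hk i m hq => by
      by_cases h1 : ix (K - k) i = ix K x.1 ∧ ix (K - k) m = ix K x.2.2
      · refine le_trans (sum_le_sum fun x1 _ => sum_le_sum fun z _ => ?_)
          (mass_alive C hΛ hk.le h1.1 h1.2 hq.2)
        rw [hc]
        beta_reduce
        split_ifs
        · exact le_rfl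
        · exact H922.dot_self_nonneg _
      · have h2 : ∑ x1 ∈ iv k i, ∑ z ∈ iv k m, c x1 z = 0 := by
          refine sum_eq_zero fun x1 hx1 => sum_eq_zero fun z hz => ?_
          rw [hc]
          beta_reduce
          rw [if_neg]
          rintro ⟨h3, h4⟩
          refine h1 ⟨?_, ?_⟩
          · have h5 := ix_ix k (K - k) x1
            rw [Nat.add_sub_cancel' hk.le, mem_iv.1 hx1] at h5
            rw [h5, mem_iv.1 h3]
            rfl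
          · have h5 := ix_ix k (K - k) z
            rw [Nat.add_sub_cancel' hk.le, mem_iv.1 hz] at h5
            rw [h5, mem_iv.1 h4]
            rfl
        rw [h2]
        positivity) lam
  refine le_trans (le_of_eq ?_) key
  refine sum_congr rfl fun x1 hx1 => sum_congr rfl fun z hz => ?_
  rw [hc]
  beta_reduce
  rw [if_pos ⟨hx1, hz⟩]

/-! ### Class data -/

open Vale.Agent.P141.H505.Sk1 (eT)
open Vale.Agent.P141.H808 (cS thS)
open Vale.Agent.P141.H408 (beI PairQ)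

theorem form_two (M : Matrix ι ι ℝ) (w : ι → ℝ) {ez : ℝ} (hez : 0 < ez) (f : ℝ) :
    ((√ez)⁻¹ • (f • w)) ⬝ᵥ M *ᵥ ((√ez)⁻¹ • (f • w)) = f ^ 2 / ez * (w ⬝ᵥ M *ᵥ w) := by
  rw [mulVec_smul, mulVec_smul, smul_dotProduct, smul_dotProduct, dotProduct_smul,
    dotProduct_smul]
  simp only [smul_eq_mul]
  have h1 : (√ez)⁻¹ * (√ez)⁻¹ = ez⁻¹ := by rw [← mul_inv, Real.mul_self_sqrt hez.le]
  calc (√ez)⁻¹ * (f * ((√ez)⁻¹ * (f * (w ⬝ᵥ M *ᵥ w))))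
      = ((√ez)⁻¹ * (√ez)⁻¹) * (f ^ 2 * (w ⬝ᵥ M *ᵥ w)) := by ring
    _ = _ := by rw [h1]; ring

theorem eT_cS {p : H401.Num} {s r : ℝ} {o : ℤ} {K : ℕ} {x : Pt} {U : Tri}
    {u v : ℤ → ℤ → ι → ℝ} {ez : ℝ} (hez : 0 < ez) (F2 : ℕ → Pt → ℝ) (x0 : ℤ) (j k : ℕ)
    (x1 z : ℤ) : eT (cS p ez U K v F2 x0 j) (thS p s r o K x u x0) k x1 z =
      kF p.Lm U.2.1 K F2 (min j K) (x0, x1, z) ^ 2 / ez *
        (v x1 z ⬝ᵥ (beI p r • (1 : Matrix ι ι ℝ) + Th (p.lam s r) K (cx K x).2.1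
          (KT (p.lam s r) u x1) (o - 2) x0 x1 k (ix k z)) *ᵥ v x1 z) :=
  form_two _ _ hez _

/-- **Energies for class data.** -/
theorem en_cls {p : H401.Num} {K n : ℕ} {x : Pt} {s r P : ℝ} {U : Tri} {g : ℤ → ℤ → ℝ}
    {u v : ℤ → ℤ → ι → ℝ} (C : Cls K x s r P U g u v) (hs : 0 ≤ s) (hP : 0 ≤ P)
    (hLm : 0 ≤ p.Lm) {ez cP : ℝ} {F2 : ℕ → Pt → ℝ} {Q2 : ℕ → Pt → Prop}
    (hB : BSl n ez cP F2 Q2) (hez : 0 < ez) (hcP : 0 ≤ cP) (hK : K ≤ n)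
    (hl : 0 < p.lam s r) (hbe : 0 < beI p r) (o : ℤ) (L lam : ℕ) :
    ∃ E : ℤ → ℝ, (∀ x0, 0 ≤ E x0) ∧
    (∀ t ∈ rt (cx K x), ∀ x0 ∈ iv K t, ∀ k ≤ K, ∀ j, k ≤ j → j ≤ k + 1 →
      ∑ x1 ∈ iv K (cx K x).1, ∑ z ∈ iv K (cx K x).2.2,
        eT (cS p ez U K v F2 x0 j) (thS p s r o K x u x0) k x1 z ≤ E x0) ∧
    ∑ t ∈ rt (cx K x), ∑ x0 ∈ iv K t, E x0 ≤ 6 * (s * 8 ^ K) *
      (((lam : ℝ) + 1) * (beI p r + 10 * L * (P / p.lam s r) + 2 / 2 ^ L) +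
        (beI p r + 2) * (p.Lm * ((1 - 1 / (cP + 1)) ^ lam * (cP + 1)))) := by
  choose Ec c0 c1 c2 c3 using fun (x1 z T : ℤ) => en_pt (Λ := p.Lm) (a := U.2.1) hB hez hK
    (S := (cx K x).2.1) (tr_T hl K u x1) hbe.le (v x1 z) (o - 2) x1 z L lam T
  refine ⟨fun x0 => ∑ x1 ∈ iv K (cx K x).1, ∑ z ∈ iv K (cx K x).2.2, Ec x1 z (ix K x0) x0,
    fun x0 => sum_nonneg fun x1 _ => sum_nonneg fun z _ => c0 x1 z _ x0, ?_, ?_⟩
  · intro t _ x0 _ k hk j hj hj'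
    refine sum_le_sum fun x1 _ => sum_le_sum fun z _ => ?_
    rw [eT_cS hez]
    rcases Nat.lt_or_ge j (k + 1) with h1 | h1
    · obtain rfl : j = k := by omega
      rw [min_eq_left hk]
      exact c1 x1 z _ j hk x0
    · obtain rfl : j = k + 1 := by omega
      rcases Nat.lt_or_ge k K with h2 | h2
      · rw [min_eq_left (by omega)]
        exact c2 x1 z _ k h2 x0
      · obtain rfl : k = K := by omega
        rw [min_eq_right (by omega)]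
        exact c1 x1 z _ k le_rfl x0
  · set N : ℝ := 2 * (s * 8 ^ K) *
      (((lam : ℝ) + 1) * (beI p r + 10 * L * (P / p.lam s r) + 2 / 2 ^ L) +
        (beI p r + 2) * (p.Lm * ((1 - 1 / (cP + 1)) ^ lam * (cP + 1)))) with hN
    have key : ∀ t ∈ rt (cx K x), ∑ x0 ∈ iv K t, ∑ x1 ∈ iv K (cx K x).1,
        ∑ z ∈ iv K (cx K x).2.2, Ec x1 z (ix K x0) x0 ≤ N := by
      intro t _
      have e1 : ∑ x0 ∈ iv K t, ∑ x1 ∈ iv K (cx K x).1, ∑ z ∈ iv K (cx K x).2.2,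
          Ec x1 z (ix K x0) x0 = ∑ x1 ∈ iv K (cx K x).1, ∑ z ∈ iv K (cx K x).2.2,
          ∑ x0 ∈ iv K t, Ec x1 z t x0 := by
        rw [sum_comm]
        refine sum_congr rfl fun x1 _ => ?_
        rw [sum_comm]
        refine sum_congr rfl fun z _ => sum_congr rfl fun x0 hx0 => ?_
        rw [mem_iv.1 hx0]
      rw [e1]
      have h1 : ∀ x1 ∈ iv K (cx K x).1, ∀ z ∈ iv K (cx K x).2.2,
          ∑ x0 ∈ iv K t, Ec x1 z t x0 ≤
          ((lam : ℝ) + 1) * 2 * 2 ^ K * (beI p r + 10 * L * (P / p.lam s r) + 2 / 2 ^ L) *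
            (v x1 z ⬝ᵥ v x1 z) + 2 * (beI p r + 2) * ∑ x0 ∈ iv K t, ((v x1 z ⬝ᵥ v x1 z) *
          ((cq (fun k j => Qs p.Lm U.2.1 K Q2 k j (ix k x1) (ix k z)) K 0 x0 - lam : ℕ) :
            ℝ)) := by
        intro x1 hx1 z _
        refine (c3 x1 z t).trans ?_
        have h2 : v x1 z ⬝ᵥ GT u x1 K (cx K x).2.1 *ᵥ v x1 z ≤ P * (v x1 z ⬝ᵥ v x1 z) := by
          rw [GT_form]
          exact H58.pot_u C x1 hx1 (v x1 z)
        have h3 : (p.lam s r)⁻¹ * (v x1 z ⬝ᵥ GT u x1 K (cx K x).2.1 *ᵥ v x1 z) ≤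
            P / p.lam s r * (v x1 z ⬝ᵥ v x1 z) := by
          refine (mul_le_mul_of_nonneg_left h2 (inv_nonneg.2 hl.le)).trans (le_of_eq ?_)
          rw [div_eq_inv_mul]
          ring
        have h4 : 10 * (L : ℝ) * (p.lam s r)⁻¹ *
            (v x1 z ⬝ᵥ GT u x1 K (cx K x).2.1 *ᵥ v x1 z) ≤
            10 * L * (P / p.lam s r) * (v x1 z ⬝ᵥ v x1 z) := by
          have h5 := mul_le_mul_of_nonneg_left h3 (show (0 : ℝ) ≤ 10 * L by positivity)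
          linarith
        have h6 : ((lam : ℝ) + 1) * (2 * 1) * (2 ^ K * (beI p r * (v x1 z ⬝ᵥ v x1 z)) +
            2 ^ K * (10 * L * (p.lam s r)⁻¹ *
            (v x1 z ⬝ᵥ GT u x1 K (cx K x).2.1 *ᵥ v x1 z) + 2 / 2 ^ L * (v x1 z ⬝ᵥ v x1 z))) ≤
            ((lam : ℝ) + 1) * 2 * 2 ^ K * (beI p r + 10 * L * (P / p.lam s r) + 2 / 2 ^ L) *
            (v x1 z ⬝ᵥ v x1 z) := by
          calc _ ≤ ((lam : ℝ) + 1) * (2 * 1) * (2 ^ K * (beI p r * (v x1 z ⬝ᵥ v x1 z)) +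
            2 ^ K * (10 * L * (P / p.lam s r) * (v x1 z ⬝ᵥ v x1 z) +
              2 / 2 ^ L * (v x1 z ⬝ᵥ v x1 z))) := by gcongr
            _ = _ := by ring
        refine add_le_add h6 (le_of_eq ?_)
        rw [← mul_sum]
        ring
      refine (sum_le_sum fun x1 hx1 => sum_le_sum fun z hz => h1 x1 hx1 z hz).trans ?_
      simp only [sum_add_distrib, ← mul_sum]
      have hv : ∑ x1 ∈ iv K (cx K x).1, ∑ z ∈ iv K (cx K x).2.2, v x1 z ⬝ᵥ v x1 z ≤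
          s * 4 ^ K := by
        rw [sum_comm]
        exact H58.mass_v C
      have e8 : (8 : ℝ) ^ K = 2 ^ K * 4 ^ K := by rw [← mul_pow]; norm_num
      have hA : ((lam : ℝ) + 1) * 2 * 2 ^ K * (beI p r + 10 * L * (P / p.lam s r) + 2 / 2 ^ L) *
          ∑ x1 ∈ iv K (cx K x).1, ∑ z ∈ iv K (cx K x).2.2, v x1 z ⬝ᵥ v x1 z ≤
          2 * (s * 8 ^ K) * (((lam : ℝ) + 1) *
            (beI p r + 10 * L * (P / p.lam s r) + 2 / 2 ^ L)) := by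
        calc _ ≤ ((lam : ℝ) + 1) * 2 * 2 ^ K *
            (beI p r + 10 * L * (P / p.lam s r) + 2 / 2 ^ L) * (s * 4 ^ K) :=
              mul_le_mul_of_nonneg_left hv (by positivity)
          _ = _ := by rw [e8]; ring
      have hT : ∑ x1 ∈ iv K (cx K x).1, ∑ z ∈ iv K (cx K x).2.2, (v x1 z ⬝ᵥ v x1 z) *
          ∑ x0 ∈ iv K t,
          ((cq (fun k j => Qs p.Lm U.2.1 K Q2 k j (ix k x1) (ix k z)) K 0 x0 - lam : ℕ) : ℝ) ≤
          2 ^ K * (p.Lm * s * ((1 - 1 / (cP + 1)) ^ lam * ((cP + 1) * 4 ^ K))) := by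
        have h2 : ∀ x0 ∈ iv K t, ∑ x1 ∈ iv K (cx K x).1, ∑ z ∈ iv K (cx K x).2.2,
            (v x1 z ⬝ᵥ v x1 z) *
          ((cq (fun k j => Qs p.Lm U.2.1 K Q2 k j (ix k x1) (ix k z)) K 0 x0 - lam : ℕ) : ℝ) ≤
            p.Lm * s * ((1 - 1 / (cP + 1)) ^ lam * ((cP + 1) * 4 ^ K)) := fun x0 _ =>
          tail_cls C hLm hs hB hcP hK x0 lam
        have h3 := sum_le_sum h2
        rw [sum_const, card_iv, nsmul_eq_mul] at h3
        push_cast at h3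
        refine le_trans (le_of_eq ?_) h3
        rw [sum_comm (s := iv K t)]
        refine sum_congr rfl fun x1 _ => ?_
        rw [sum_comm (s := iv K t)]
        refine sum_congr rfl fun z _ => ?_
        rw [mul_sum]
      have hB2 : 2 * (beI p r + 2) * ∑ x1 ∈ iv K (cx K x).1, ∑ z ∈ iv K (cx K x).2.2,
          (v x1 z ⬝ᵥ v x1 z) * ∑ x0 ∈ iv K t,
          ((cq (fun k j => Qs p.Lm U.2.1 K Q2 k j (ix k x1) (ix k z)) K 0 x0 - lam : ℕ) : ℝ) ≤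
          2 * (s * 8 ^ K) *
            ((beI p r + 2) * (p.Lm * ((1 - 1 / (cP + 1)) ^ lam * (cP + 1)))) := by
        calc _ ≤ 2 * (beI p r + 2) *
            (2 ^ K * (p.Lm * s * ((1 - 1 / (cP + 1)) ^ lam * ((cP + 1) * 4 ^ K)))) :=
              mul_le_mul_of_nonneg_left hT (by positivity)
          _ = _ := by rw [e8]; ring
      rw [hN]
      linarith
    refine (sum_le_sum key).trans ?_
    have hcard : (rt (cx K x)).card = 3 := by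
      unfold H677.rt
      rw [Int.card_Icc]
      omega
    rw [sum_const, hcard, nsmul_eq_mul, hN]
    push_cast
    refine le_of_eq ?_
    ring

/-! ### The leaf -/

/-- levels against a small loss -/
theorem lev {B δ : ℝ} (hB : 1 ≤ B) (hδ : 0 < δ) : ∃ C : ℝ, 0 ≤ C ∧ ∀ y : ℝ, 0 < y → y ≤ 1 →
    ∃ N : ℕ, (1 - 1 / B) ^ N ≤ y ∧ (N : ℝ) + 1 ≤ C * y ^ (-δ) := by
  have hB0 : 0 < B := by linarith
  refine ⟨B / δ + 2, by positivity, fun y hy hy1 => ?_⟩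
  have hl0 : 0 ≤ Real.log y⁻¹ := Real.log_nonneg ((one_le_inv₀ hy).2 hy1)
  have h9 : 1 ≤ y ^ (-δ) := Real.one_le_rpow_of_pos_of_le_one_of_nonpos hy hy1 (by linarith)
  have h8 : y⁻¹ ^ δ = y ^ (-δ) := by rw [Real.inv_rpow hy.le, Real.rpow_neg hy.le]
  have h5 : Real.log y⁻¹ ≤ y⁻¹ ^ δ / δ := Real.log_le_rpow_div (by positivity) hδ
  rw [h8] at h5
  refine ⟨⌈B * Real.log y⁻¹⌉₊, ?_, ?_⟩
  · set N : ℕ := ⌈B * Real.log y⁻¹⌉₊ with hN
    have h1 : B * Real.log y⁻¹ ≤ N := Nat.le_ceil _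
    have h2 : 0 ≤ 1 - 1 / B := by
      rw [sub_nonneg, div_le_one hB0]
      exact hB
    have h3 : 1 - 1 / B ≤ Real.exp (-(1 / B)) := Real.one_sub_le_exp_neg (1 / B)
    calc (1 - 1 / B) ^ N ≤ Real.exp (-(1 / B)) ^ N := pow_le_pow_left₀ h2 h3 N
      _ = Real.exp (N * (-(1 / B))) := (Real.exp_nat_mul _ _).symm
      _ ≤ Real.exp (Real.log y) := by
          refine Real.exp_le_exp.2 ?_
          rw [Real.log_inv] at h1
          have h4 : (N : ℝ) * (-(1 / B)) = -(N / B) := by ring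
          rw [h4, neg_le, le_div_iff₀ hB0]
          linarith
      _ = y := Real.exp_log hy
  · have h2 : ((⌈B * Real.log y⁻¹⌉₊ : ℕ) : ℝ) ≤ B * Real.log y⁻¹ + 1 :=
      (Nat.ceil_lt_add_one (by positivity)).le
    have h3 := mul_le_mul_of_nonneg_left h5 hB0.le
    have h4 : B * (y ^ (-δ) / δ) = B / δ * y ^ (-δ) := by ring
    linarith

/-- **Leaf `FEn`.** -/
theorem fEn : H808.FEn := by
  unfold H808.FEn PairQ
  intro a _ _
  refine ⟨1, one_pos, fun e0 he0 he1 => ⟨1, one_pos, fun k8 _ _ => ⟨1, one_pos,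
    fun k3 _ _ δ hδ => ?_⟩⟩⟩
  refine ⟨e0 / 2, δ, by positivity, hδ, fun c _ hcc d hd hdδ Kt e cP L _ _ hcP hL => ?_⟩
  obtain ⟨C1, hC1, lev1⟩ := lev (B := 2) (δ := δ / 2) (by norm_num) (by positivity)
  obtain ⟨C2, hC2, lev2⟩ := lev (B := cP + 1) (δ := δ / 2) (by linarith) (by positivity)
  refine ⟨6 * (C2 * C1 * (3 + 10 * L) + 3 * (cP + 1)), by positivity, ?_⟩
  intro t ht ht1 n ez F1 F2 F3 _ _ _ o _ K hK x ι _ _ s r U g u v hs hr hcls Q1 Q2 Q3 _ q2 _ hez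
  set p : H401.Num := ⟨a, e0, k8, k3, c, d, Kt, e, cP, L, 1, t⟩ with hp
  have hr0 : 0 < r := by linarith
  have hy0 : 0 < t / r := div_pos ht hr0
  have hyt : t / r ≤ t := div_le_self ht.le hr
  have hy1 : t / r ≤ 1 := hyt.trans ht1
  have hl : 0 < p.lam s r := H401.Num.lam_pos (p := p) ht hs hr
  have hbe : 0 < beI p r := Real.rpow_pos_of_pos hy0 _
  have hLm : 0 ≤ p.Lm := Real.rpow_nonneg ht.le _
  have hsq : 0 < √s := Real.sqrt_pos.2 hs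
  have hP : 0 ≤ L * t ^ (2 - c) * √s := by
    have := Real.rpow_pos_of_pos ht (2 - c)
    positivity
  obtain ⟨N1, n1, n1'⟩ := lev1 (t / r) hy0 hy1
  obtain ⟨N2, n2, n2'⟩ := lev2 (t / r) hy0 hy1
  obtain ⟨E, e1, e2, e3⟩ := en_cls (p := p) hcls.toCls hs.le hP hLm q2 hez hcP hK hl hbe o N1 N2
  refine ⟨E, e1, e2, e3.trans ?_⟩
  show 6 * (s * 8 ^ K) * (((N2 : ℝ) + 1) * ((t / r) ^ (e0 / 2) +
      10 * N1 * (L * t ^ (2 - c) * √s / p.lam s r) + 2 / 2 ^ N1) +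
        ((t / r) ^ (e0 / 2) + 2) * (t ^ (-d) * ((1 - 1 / (cP + 1)) ^ N2 * (cP + 1)))) ≤
      6 * (C2 * C1 * (3 + 10 * L) + 3 * (cP + 1)) * (t / r) ^ (-δ) * (s * 8 ^ K) *
        (t / r) ^ (e0 / 2)
  set y : ℝ := t / r with hy
  have hye : 0 < y ^ (e0 / 2) := Real.rpow_pos_of_pos hy0 _
  have hye1 : y ^ (e0 / 2) ≤ 1 := Real.rpow_le_one hy0.le hy1 (by positivity)
  have hyy : y ≤ y ^ (e0 / 2) := by
    calc y = y ^ (1 : ℝ) := (Real.rpow_one y).symm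
      _ ≤ y ^ (e0 / 2) := Real.rpow_le_rpow_of_exponent_ge hy0 hy1 (by linarith)
  have hyδ : 1 ≤ y ^ (-δ) := Real.one_le_rpow_of_pos_of_le_one_of_nonpos hy0 hy1 (by linarith)
  -- the potential against the gap
  have hgap : L * t ^ (2 - c) * √s / p.lam s r ≤ L * y ^ (e0 / 2) := by
    have e4 : L * t ^ (2 - c) * √s / p.lam s r = L * (t ^ (-c) * y ^ e0) := by
      show L * t ^ (2 - c) * √s / (t ^ (2 - e0) * √s * r ^ e0) = _
      have h1 : t ^ (2 - c) = t ^ (2 - e0) * t ^ e0 * t ^ (-c) := by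
        rw [← Real.rpow_add ht, ← Real.rpow_add ht]
        congr 1
        ring
      have h2 : 0 < t ^ (2 - e0) := Real.rpow_pos_of_pos ht _
      have h3 : 0 < r ^ e0 := Real.rpow_pos_of_pos hr0 _
      rw [h1, hy, Real.div_rpow ht.le hr0.le]
      field_simp
    rw [e4]
    refine mul_le_mul_of_nonneg_left ?_ (by linarith)
    have h1 : t ^ (-c) ≤ y ^ (-(e0 / 2)) := H652.td_le ht ht1 hr (by assumption) hcc
    calc t ^ (-c) * y ^ e0 ≤ y ^ (-(e0 / 2)) * y ^ e0 :=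
          mul_le_mul_of_nonneg_right h1 (Real.rpow_nonneg hy0.le _)
      _ = y ^ (e0 / 2) := by
          rw [← Real.rpow_add hy0]
          congr 1
          ring
  have h2L : 2 / (2 : ℝ) ^ N1 ≤ 2 * y ^ (e0 / 2) := by
    have h1 : (1 - 1 / 2 : ℝ) ^ N1 = 1 / 2 ^ N1 := by
      rw [show (1 - 1 / 2 : ℝ) = 1 / 2 by norm_num, _root_.one_div_pow]
    rw [h1] at n1
    have h2 : 2 / (2 : ℝ) ^ N1 = 2 * (1 / 2 ^ N1) := by ring
    rw [h2]
    linarith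
  have hd' : t ^ (-d) ≤ y ^ (-δ) := H652.td_le ht ht1 hr hd.le hdδ
  have hN1 : (0 : ℝ) ≤ N1 := Nat.cast_nonneg _
  have hN2 : (0 : ℝ) ≤ (N2 : ℝ) + 1 := by positivity
  have hA : ((N2 : ℝ) + 1) * (y ^ (e0 / 2) + 10 * N1 * (L * t ^ (2 - c) * √s / p.lam s r) +
      2 / 2 ^ N1) ≤ C2 * C1 * (3 + 10 * L) * y ^ (-δ) * y ^ (e0 / 2) := by
    have h1 : y ^ (e0 / 2) + 10 * N1 * (L * t ^ (2 - c) * √s / p.lam s r) + 2 / 2 ^ N1 ≤
        ((N1 : ℝ) + 1) * (3 + 10 * L) * y ^ (e0 / 2) := by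
      have h2 := mul_le_mul_of_nonneg_left hgap (show (0 : ℝ) ≤ 10 * N1 by positivity)
      have h3 : 0 ≤ L * y ^ (e0 / 2) := by positivity
      have h4 : 0 ≤ (N1 : ℝ) * y ^ (e0 / 2) := by positivity
      nlinarith
    have h5 : ((N2 : ℝ) + 1) * ((N1 : ℝ) + 1) ≤ C2 * y ^ (-(δ / 2)) * (C1 * y ^ (-(δ / 2))) :=
      mul_le_mul n2' n1' (by positivity) (by positivity)
    have h6 : y ^ (-(δ / 2)) * y ^ (-(δ / 2)) = y ^ (-δ) := by
      rw [← Real.rpow_add hy0]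
      congr 1
      ring
    calc _ ≤ ((N2 : ℝ) + 1) * (((N1 : ℝ) + 1) * (3 + 10 * L) * y ^ (e0 / 2)) :=
          mul_le_mul_of_nonneg_left h1 hN2
      _ = (((N2 : ℝ) + 1) * ((N1 : ℝ) + 1)) * ((3 + 10 * L) * y ^ (e0 / 2)) := by ring
      _ ≤ C2 * y ^ (-(δ / 2)) * (C1 * y ^ (-(δ / 2))) * ((3 + 10 * L) * y ^ (e0 / 2)) :=
          mul_le_mul_of_nonneg_right h5 (by positivity)
      _ = C2 * C1 * (3 + 10 * L) * (y ^ (-(δ / 2)) * y ^ (-(δ / 2))) * y ^ (e0 / 2) := by ring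
      _ = _ := by rw [h6]
  have hB : (y ^ (e0 / 2) + 2) * (t ^ (-d) * ((1 - 1 / (cP + 1)) ^ N2 * (cP + 1))) ≤
      3 * (cP + 1) * y ^ (-δ) * y ^ (e0 / 2) := by
    have h0 : 0 ≤ (1 - 1 / (cP + 1)) ^ N2 := by
      refine pow_nonneg ?_ _
      rw [sub_nonneg, div_le_one (by linarith)]
      linarith
    have h1 : (1 - 1 / (cP + 1)) ^ N2 * (cP + 1) ≤ y ^ (e0 / 2) * (cP + 1) :=
      mul_le_mul_of_nonneg_right (n2.trans hyy) (by linarith)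
    have h2 : t ^ (-d) * ((1 - 1 / (cP + 1)) ^ N2 * (cP + 1)) ≤
        y ^ (-δ) * (y ^ (e0 / 2) * (cP + 1)) :=
      mul_le_mul hd' h1 (by positivity) (by positivity)
    calc _ ≤ 3 * (y ^ (-δ) * (y ^ (e0 / 2) * (cP + 1))) :=
          mul_le_mul (by linarith) h2
            (mul_nonneg (Real.rpow_nonneg ht.le _) (by positivity)) (by norm_num)
      _ = _ := by ring
  calc _ ≤ 6 * (s * 8 ^ K) * (C2 * C1 * (3 + 10 * L) * y ^ (-δ) * y ^ (e0 / 2) +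
        3 * (cP + 1) * y ^ (-δ) * y ^ (e0 / 2)) :=
        mul_le_mul_of_nonneg_left (add_le_add hA hB) (by positivity)
    _ = _ := by ring

end

end Vale.Agent.P141.H681
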